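import Vale.Agent.P093Z.Cup
import Vale.Agent.P093E.Cub

/-! P093Z Lst (TASK). Port of `P093E/Lst.lean` with signs (`zC_cons`, `zB_zD`). `ess_two`: take `n = 2` (`CharTwo.neg_eq`, `CharTwo.sub_eq_add`). Helper names start with `zls_`. -/

open Filter Topology Set

noncomputable section

namespace Vale.Agent.P093

theorem zls_D {X K : Type} [CommRing K] (m : ℕ) (φ : List X → K) (x : Fin (m + 1) → X) :
    zD φ (List.ofFn x) =
      ∑ j : Fin (m + 1), (-1) ^ (j : ℕ) * φ (List.ofFn fun i => x (j.succAbove i)) := by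
  induction m generalizing φ with
  | zero =>
    rw [List.ofFn_succ, List.ofFn_zero, Fin.sum_univ_succ, Fin.sum_univ_zero, List.ofFn_zero]
    simp [zD]
  | succ m ih =>
    have e : zD φ (List.ofFn x) = φ (List.ofFn fun i : Fin (m + 1) => x i.succ) -
        zD (fun w => φ (x 0 :: w)) (List.ofFn fun i : Fin (m + 1) => x i.succ) := by
      rw [List.ofFn_succ]
      rfl
    rw [e, ih, Fin.sum_univ_succ (n := m + 1), sub_eq_add_neg, ← Finset.sum_neg_distrib]
    simp only [Fin.succAbove_zero, Fin.val_zero, pow_zero, one_mul]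
    refine congrArg _ (Finset.sum_congr rfl fun j _ => ?_)
    rw [List.ofFn_succ (f := fun i => x (j.succ.succAbove i))]
    simp only [Fin.succ_succAbove_zero, Fin.succ_succAbove_succ, Fin.val_succ, pow_succ]
    ring

theorem zls_cons {X K : Type} [CommRing K] (s : ℕ → X → K) (k : ℕ) (x y : X) (l : List X) :
    zB s (k + 1) (x :: y :: l) = (s k y - s k x) * zB s k (y :: l) :=
  zC_cons (s k) (zB_zD s k) x y l

theorem zls_B {X K : Type} [CommRing K] (s : ℕ → X → K) (m : ℕ) (x : Fin (m + 1) → X) :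
    zB s m (List.ofFn x) = ∏ i : Fin m, (s i.rev (x i.succ) - s i.rev (x i.castSucc)) := by
  induction m with
  | zero =>
    rw [List.ofFn_succ, List.ofFn_zero, Fin.prod_univ_zero]
    simp [zB, zD]
  | succ m ih =>
    have e : List.ofFn x = x 0 :: x 1 :: List.ofFn fun i : Fin m => x i.succ.succ := by
      rw [List.ofFn_succ, List.ofFn_succ]
      rfl
    have e' : List.ofFn (fun i : Fin (m + 1) => x i.succ) =
        x 1 :: List.ofFn fun i : Fin m => x i.succ.succ := by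
      rw [List.ofFn_succ]
      rfl
    rw [e, zls_cons, ← e', ih, Fin.prod_univ_succ]
    refine congrArg₂ _ rfl (Finset.prod_congr rfl fun i _ => ?_)
    rw [Fin.rev_succ, Fin.val_castSucc, Fin.succ_castSucc]

theorem essZ_list {X : Type} [MetricSpace X] {m : ℕ} {A B : Fin m → Set X} (h : EssZ A B) {δ : ℝ}
    (hδ : 0 < δ) : ∃ n > 0, ∃ z : List (List X),
      (∀ l ∈ z, l.length = m + 1 ∧ ∀ x ∈ l, ∀ y ∈ l, dist x y < δ) ∧
      (∀ φ : List X → ZMod n, (∀ l, l.length = m →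
        (∃ i, (∀ x ∈ l, x ∈ A i) ∨ ∀ x ∈ l, x ∈ B i) → φ l = 0) → (z.map (zD φ)).sum = 0) ∧
      ∀ s : ℕ → X → ZMod n, (∀ i : Fin m, ∀ a ∈ A i, s i.rev a = 0) →
        (∀ i : Fin m, ∀ b ∈ B i, s i.rev b = 1) → (z.map (zB s m)).sum ≠ 0 := by
  obtain ⟨n, hn, z, h1, h2, h3⟩ := h δ hδ
  refine ⟨n, hn, z.map List.ofFn, fun l hl => ?_, fun φ hφ => ?_, fun s s0 s1 e => ?_⟩
  · obtain ⟨x, hx, rfl⟩ := List.mem_map.1 hl
    refine ⟨List.length_ofFn, fun a ha b hb => ?_⟩
    obtain ⟨i, rfl⟩ := List.mem_ofFn.1 ha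
    obtain ⟨j, rfl⟩ := List.mem_ofFn.1 hb
    exact h1 x hx i j
  · rw [List.map_map, ← h2 (fun y => φ (List.ofFn y)) fun y i hy => ?_]
    · exact congrArg _ (List.map_congr_left fun x _ => zls_D m φ x)
    · refine hφ _ List.length_ofFn ⟨i, hy.imp (fun hc a ha => ?_) fun hc a ha => ?_⟩
      · obtain ⟨j, rfl⟩ := List.mem_ofFn.1 ha
        exact hc j
      · obtain ⟨j, rfl⟩ := List.mem_ofFn.1 ha
        exact hc j
  · refine h3 (fun i => s i.rev) s0 s1 (Eq.trans ?_ e)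
    rw [List.map_map]
    exact congrArg _ (List.map_congr_left fun x _ => (zls_B s m x).symm)

theorem ess_two {X : Type} [MetricSpace X] {m : ℕ} {A B : Fin m → Set X} (h : Ess A B) :
    EssZ A B := by
  intro δ hδ
  obtain ⟨z, h1, h2, h3⟩ := h δ hδ
  refine ⟨2, two_pos, z, h1, fun φ hφ => ?_, fun s s0 s1 => ?_⟩
  · simp only [CharTwo.neg_eq, one_pow, one_mul]
    exact h2 φ hφ
  · have e := h3 s s0 s1
    simp only [CharTwo.sub_eq_add]
    simp only [add_comm] at e ⊢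
    rw [e]
    exact one_ne_zero

theorem homOrd_le_intOrd {X : Type} [MetricSpace X] (𝒰 : Set (Set X)) :
    homOrd 𝒰 ≤ intOrd 𝒰 :=
  iSup_mono fun _ => iSup_mono fun _ => iSup_mono fun _ => iSup_mono fun _ =>
    iSup_le fun h => le_iSup_of_le (ess_two h) le_rfl

theorem cubeOrd_le_intOrd {X : Type} [MetricSpace X] (𝒰 : Set (Set X)) :
    cubeOrd 𝒰 ≤ intOrd 𝒰 := (cubeOrd_le_homOrd 𝒰).trans (homOrd_le_intOrd 𝒰)

end Vale.Agent.P093
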