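import Vale.Agent.P093.BUb
import Vale.Agent.P093Z.Cap
import Vale.Agent.P093Z.Sgn
import Vale.Agent.P093Z.Lst

/-! P093Z Blk (TASK). Port of `bu_blocksZ` (end of `P093E/Blk.lean`). Helper names start with `zbl_`. Order of choices: `c`, then `η` from `bub_unif` for `c / 16`, then `n', z` from `essZ_list` (`K = ZMod n'`), then `N` from `kap_big` with `n * (9 / N) < η`, `sec` from `exists_sec`, `sgn_r`, `sgn_s`, `cap_comb` (`χ k a = w k a`), and finally `zG_zero`; in the second case `c ≤ ‖F x0 i‖`, all values of `F _ i` on `l` have norm `> c / 2` and mutual distance `< c / 8`, then `kap_zero` (`Int.cast_sub`, `Int.cast_add`). -/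

open Filter Topology Set

noncomputable section

namespace Vale.Agent.P093

theorem bu_blocksY {X : Type} [MetricSpace X] [CompactSpace X] {m : ℕ} {A B : Fin m → Set X}
    (hE : EssY A B) {C : Type} [Fintype C] [DecidableEq C] {n : ℕ} (fac : Fin n → C)
    (R : X → (Fin n ⊕ C → ℂ) → Fin m → ℝ) (F : X → (Fin n ⊕ C → ℂ) → Fin n → ℂ)
    (hR : ContinuousOn (fun z : X × (Fin n ⊕ C → ℂ) => R z.1 z.2) {z | zNZ fac z.2})
    (hF : ContinuousOn (fun z : X × (Fin n ⊕ C → ℂ) => F z.1 z.2) {z | zNZ fac z.2})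
    (r0 : ∀ a c, ‖c‖ = 1 → ∀ x y, R x (rot fac a c y) = R x y)
    (r1 : ∀ i, ∀ x ∈ A i, ∀ y, R x y i ≤ 0) (r2 : ∀ i, ∀ x ∈ B i, ∀ y, 0 ≤ R x y i)
    (w : Fin n → C → ℕ)
    (h1 : ∀ k a c, ‖c‖ = 1 → ∀ x y, F x (rot fac a c y) k = c ^ w k a * F x y k)
    (h2 : ∀ k, w k (fac k) = 1) (h3 : ∀ k k', k' < k → fac k' ≠ fac k → w k (fac k') = 0) :
    ∃ x y, zNZ fac y ∧ R x y = 0 ∧ F x y = 0 := by
  by_contra hc
  push Not at hc
  have hKc : IsCompact ((univ : Set X) ×ˢ zK fac) := isCompact_univ.prod zK_compact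
  have hK : ContinuousOn (fun z : X × (Fin n ⊕ C → ℂ) => (R z.1 z.2, F z.1 z.2))
      (univ ×ˢ zK fac) := (hR.prodMk hF).mono fun x hx => zK_nz hx.2
  obtain ⟨c, c0, hc'⟩ := hKc.exists_forall_le' hK.norm fun x hx => norm_pos_iff.2 fun h =>
    hc x.1 x.2 (zK_nz hx.2) (congrArg Prod.fst h) (congrArg Prod.snd h)
  obtain ⟨η, η0, hη⟩ := bub_unif hKc hK (show 0 < c / 16 by positivity)
  obtain ⟨n', n0, z, z1, z2, z3⟩ := essZ_list hE.1 η0
  obtain ⟨N₀, hN₀⟩ := exists_nat_gt (9 * (n + 1) / η)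
  obtain ⟨N, hN, h16, N0, N1⟩ := kap_big n' N₀ n0
  haveI : NeZero N := ⟨by omega⟩
  have Np : (0 : ℝ) < N := Nat.cast_pos.2 (by omega)
  have hη' : (n : ℝ) * (9 / N) < η := by
    have h4 : (N₀ : ℝ) ≤ N := Nat.cast_le.2 hN
    have h5 := hN₀.trans_le h4
    rw [div_lt_iff₀ η0] at h5
    rw [← mul_div_assoc, div_lt_iff₀ Np]
    linarith
  obtain ⟨sec, hsec, hsm⟩ := exists_sec N h16
  obtain ⟨r, hr, hr'⟩ := sgn_r (fac := fac) sec hsec F w
    fun k a x y => h1 k a _ (zeta_norm N) x y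
  obtain ⟨s, sA, sB, sT, u1, u0⟩ := sgn_s (K := ZMod n') (fac := fac) hE.2 N R
    (fun a x y => r0 a _ (zeta_norm N) x y) r1 r2
  obtain ⟨l, ⟨hl, hlK, hd, hδ⟩, hB⟩ := cap_comb z z1 z2 z3 N0 N1 s sA sB sT r
    (fun k a => (w k a : ZMod N)) hr (fun k => by simp only [h2, Nat.cast_one])
    (fun k k' hk h => by simp only [h3 k k' hk h, Nat.cast_zero])
  refine hB (zG_zero _ _ _ _ l hl ?_)
  obtain ⟨x0, hx0⟩ := List.exists_mem_of_length_pos (l := l) (by omega)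
  have key : ∀ y ∈ l, dist (R y.1 y.2.1) (R x0.1 x0.2.1) < c / 16 ∧
      dist (F y.1 y.2.1) (F x0.1 x0.2.1) < c / 16 := fun y hy =>
    max_lt_iff.1 (hη (y.1, y.2.1) ⟨trivial, hlK y hy⟩ (x0.1, x0.2.1)
      ⟨trivial, hlK x0 hx0⟩ (max_lt (hδ y hy x0 hx0) (by
        rw [dist_eq_norm]
        exact (hd y hy x0 hx0).trans_lt hη')))
  have hx := hc' (x0.1, x0.2.1) ⟨trivial, hlK x0 hx0⟩
  rcases le_max_iff.1 hx with hx | hx
  · obtain ⟨i, hi⟩ : ∃ i, c ≤ |R x0.1 x0.2.1 i| := by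
      by_contra h
      push Not at h
      exact hx.not_gt ((pi_norm_lt_iff c0).2 h)
    have k : ∀ y ∈ l, |R y.1 y.2.1 i - R x0.1 x0.2.1 i| < c / 16 := fun y hy =>
      lt_of_le_of_lt (by rw [← Real.dist_eq]; exact dist_le_pi_dist _ _ i) (key y hy).1
    refine Or.inl ⟨i.rev, i.rev.2, fun x hx y hy => ?_⟩
    have k1 := abs_lt.1 (k x hx)
    have k2 := abs_lt.1 (k y hy)
    rcases le_abs.1 hi with h | h
    · rw [u1 i x (by linarith), u1 i y (by linarith)]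
    · rw [u0 i x (by linarith), u0 i y (by linarith)]
  · obtain ⟨i, hi⟩ : ∃ i, c ≤ ‖F x0.1 x0.2.1 i‖ := by
      by_contra h
      push Not at h
      exact hx.not_gt ((pi_norm_lt_iff c0).2 h)
    have k : ∀ y ∈ l, dist (F y.1 y.2.1 i) (F x0.1 x0.2.1 i) < c / 16 := fun y hy =>
      lt_of_le_of_lt (dist_le_pi_dist _ _ i) (key y hy).2
    have k1 : ∀ y ∈ l, c / 2 < ‖F y.1 y.2.1 i‖ := fun y hy => by
      have a1 := k y hy
      have a2 := norm_sub_norm_le (F x0.1 x0.2.1 i) (F y.1 y.2.1 i)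
      rw [← dist_eq_norm, dist_comm] at a2
      linarith
    have k2 : ∀ x ∈ l, ∀ y ∈ l, |(r i y - r i x).valMinAbs| * 4 < N := fun x hx y hy => by
      rw [hr' i x (norm_pos_iff.1 (lt_trans (half_pos c0) (k1 x hx))),
        hr' i y (norm_pos_iff.1 (lt_trans (half_pos c0) (k1 y hy)))]
      refine hsm _ _ ?_
      have a1 := dist_triangle_right (F y.1 y.2.1 i) (F x.1 x.2.1 i) (F x0.1 x0.2.1 i)
      rw [dist_eq_norm] at a1
      linarith [k x hx, k y hy, k1 x hx]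
    refine Or.inr ⟨i, i.2, fun x hx y hy v hv => ?_⟩
    simp only [dif_pos i.2, Fin.eta]
    rw [← Int.cast_sub, ← Int.cast_add, kap_zero (k2 x hx y hy) (k2 y hy v hv) (k2 x hx v hv),
      Int.cast_zero]

end Vale.Agent.P093
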