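import Vale.Agent.P093Z.Defs

/-! P093Z Ch (TASK). Signed ports of the lemmas on `buD`, `buP`, `buB` in `Vale/Agent/P209N/C/BU.lean` (induction on the list, generalizing the cochain). Helper names start with `ch_`. -/

open Filter Topology Set

noncomputable section

namespace Vale.Agent.P093

variable {X K : Type} [CommRing K]

theorem zD_add (φ ψ : List X → K) (l : List X) :
    zD (fun w => φ w + ψ w) l = zD φ l + zD ψ l := by
  induction l generalizing φ ψ with
  | nil => simp [zD]
  | cons x l ih => simp only [zD]; rw [ih]; ring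

theorem zD_sub (φ ψ : List X → K) (l : List X) :
    zD (fun w => φ w - ψ w) l = zD φ l - zD ψ l := by
  induction l generalizing φ ψ with
  | nil => simp [zD]
  | cons x l ih => simp only [zD]; rw [ih]; ring

theorem zD_mul (c : K) (φ : List X → K) (l : List X) :
    zD (fun w => c * φ w) l = c * zD φ l := by
  induction l generalizing φ with
  | nil => simp [zD]
  | cons x l ih => simp only [zD]; rw [ih]; ring

theorem zD_sum {ι : Type} (S : Finset ι) (φ : ι → List X → K) (l : List X) :
    zD (fun w => ∑ i ∈ S, φ i w) l = ∑ i ∈ S, zD (φ i) l := by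
  induction l generalizing φ with
  | nil => simp [zD]
  | cons x l ih =>
    simp only [zD]
    rw [ih fun i w => φ i (x :: w), Finset.sum_sub_distrib]

theorem zD_map {Y : Type} (g : X → Y) (φ : List Y → K) (l : List X) :
    zD (fun w => φ (w.map g)) l = zD φ (l.map g) := by
  induction l generalizing φ with
  | nil => simp [zD]
  | cons x l ih => simp only [zD, List.map_cons]; rw [← ih]

theorem zD_zD (φ : List X → K) (l : List X) : zD (zD φ) l = 0 := by
  induction l generalizing φ with
  | nil => simp [zD]
  | cons x l ih =>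
    simp only [zD]
    rw [zD_sub, ih, sub_zero, sub_self]

theorem zP_add (f g : X → X) (φ ψ : List X → K) (l : List X) :
    zP f g (fun w => φ w + ψ w) l = zP f g φ l + zP f g ψ l := by
  induction l generalizing φ ψ with
  | nil => simp [zP]
  | cons x l ih => simp only [zP]; rw [ih]; ring

theorem zP_sub (f g : X → X) (φ ψ : List X → K) (l : List X) :
    zP f g (fun w => φ w - ψ w) l = zP f g φ l - zP f g ψ l := by
  induction l generalizing φ ψ with
  | nil => simp [zP]
  | cons x l ih => simp only [zP]; rw [ih]; ring

theorem zP_sum {ι : Type} (S : Finset ι) (f g : X → X) (φ : ι → List X → K) (l : List X) :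
    zP f g (fun w => ∑ i ∈ S, φ i w) l = ∑ i ∈ S, zP f g (φ i) l := by
  induction l generalizing φ with
  | nil => simp [zP]
  | cons x l ih =>
    simp only [zP]
    rw [ih fun i w => φ i (f x :: w), Finset.sum_sub_distrib]

theorem zP_zD (f g : X → X) (φ : List X → K) (l : List X) :
    zP f g (zD φ) l = φ (l.map g) - φ (l.map f) - zD (zP f g φ) l := by
  induction l generalizing φ with
  | nil => simp [zP, zD]
  | cons x l ih =>
    simp only [zP, zD, List.map_cons]
    rw [zP_sub, zD_sub, ih, zD_map g fun w => φ (f x :: g x :: w)]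
    ring

theorem zP_zero (f g : X → X) (φ : List X → K) (l : List X)
    (h : ∀ w, w.length = l.length + 1 → (∀ z ∈ w, ∃ x ∈ l, z = f x ∨ z = g x) → φ w = 0) :
    zP f g φ l = 0 := by
  induction l generalizing φ with
  | nil => simp [zP]
  | cons x l ih =>
    simp only [zP]
    rw [ih, h, sub_zero]
    · simp
    · intro z hz
      rcases List.mem_cons.1 hz with rfl | hz
      · exact ⟨x, List.mem_cons_self, Or.inl rfl⟩
      rcases List.mem_cons.1 hz with rfl | hz
      · exact ⟨x, List.mem_cons_self, Or.inr rfl⟩
      · obtain ⟨y, hy, rfl⟩ := List.mem_map.1 hz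
        exact ⟨y, List.mem_cons_of_mem _ hy, Or.inr rfl⟩
    · intro w hw hz
      refine h _ (by simp [hw]) fun z hz' => ?_
      rcases List.mem_cons.1 hz' with rfl | hz'
      · exact ⟨x, List.mem_cons_self, Or.inl rfl⟩
      · obtain ⟨y, hy, h1⟩ := hz z hz'
        exact ⟨y, List.mem_cons_of_mem _ hy, h1⟩

theorem zP_map {f g T : X → X} (hf : ∀ x, T (f x) = f (T x)) (hg : ∀ x, T (g x) = g (T x))
    (φ : List X → K) (l : List X) :
    zP f g φ (l.map T) = zP f g (fun w => φ (w.map T)) l := by
  induction l generalizing φ with
  | nil => simp [zP]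
  | cons x l ih =>
    have e : g ∘ T = T ∘ g := funext fun y => (hg y).symm
    simp only [zP, List.map_cons, List.map_map, hf, hg, e]
    rw [ih]

theorem zN_map {N : ℕ} {T : X → X} (hT : ∀ x, T^[N] x = x) (φ : List X → K) (l : List X) :
    zN N T φ (l.map T) = zN N T φ l := by
  have e : T^[N] = id := funext hT
  have h1 := Finset.sum_range_succ (fun j => φ (l.map T^[j])) N
  have h2 := Finset.sum_range_succ' (fun j => φ (l.map T^[j])) N
  rw [h1, e, Function.iterate_zero] at h2
  simp only [zN, List.map_map, ← Function.iterate_succ]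
  exact (add_right_cancel h2).symm

theorem zN_inv {N : ℕ} (N0 : (N : K) = 0) {T : X → X} {φ : List X → K}
    (h : ∀ w : List X, φ (w.map T) = φ w) (l : List X) : zN N T φ l = 0 := by
  have e : ∀ j, φ (l.map T^[j]) = φ l := fun j => by
    induction j with
    | zero => rw [Function.iterate_zero, List.map_id]
    | succ j ih => rw [Function.iterate_succ', ← List.map_map, h, ih]
  simp only [zN, e, Finset.sum_const, Finset.card_range, nsmul_eq_mul, N0, zero_mul]

theorem zN_zD (N : ℕ) (T : X → X) (φ : List X → K) (l : List X) :
    zN N T (zD φ) l = zD (zN N T φ) l := by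
  unfold zN
  rw [zD_sum]
  exact Finset.sum_congr rfl fun j _ => (zD_map _ φ l).symm

end Vale.Agent.P093
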