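import Vale.Agent.P093.BUp
import Vale.Agent.P093Z.Blk

/-! P093Z Prd (TASK). Compare `P093/BUp.lean`, `P093E/Prd.lean`. Helper names start with `zpr_`. Apply `bu_blocksY` with `C = Option J`, `n = card J + card D`, `σ : Fin n ≃ J ⊕ D` (`finSumFinEquiv`, left indices smaller than right ones), `fac k = Sum.elim some (fun _ => none) (σ k)`, `v y o = o.elim (y (inr none)) fun d => y (inl (σ.symm (inr d)))`, `u y j = ![y (inr (some j)), y (inl (σ.symm (inl j)))]`, `F x y k = Sum.elim (fun j => ∑ s, u y j s * ∑ o, v y o * cJ j s o x) (fun d => ∑ o, v y o * cD d o (x, fun j => H (u y j))) (σ k)`, weights `w k a = if a = none ∨ a = fac k then 1 else 0`. `rot fac none c` multiplies `v` by `c` and fixes `u`; `rot fac (some j) c` fixes `v` and multiplies `u _ j` by `c`; `fun j => H (u y j)` is invariant. -/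

open Filter Topology Set

noncomputable section

namespace Vale.Agent.P093

section

variable {J D : Type} {n : ℕ} (σ : Fin n ≃ J ⊕ D)

/-- The block of an index. -/
def zpr_fac (k : Fin n) : Option J := Sum.elim some (fun _ => none) (σ k)

/-- The first coordinates. -/
def zpr_v (y : Fin n ⊕ Option J → ℂ) : Option D → ℂ :=
  fun o => o.elim (y (.inr none)) fun d => y (.inl (σ.symm (.inr d)))

/-- The second coordinates. -/
def zpr_u (y : Fin n ⊕ Option J → ℂ) (j : J) : Fin 2 → ℂ :=
  ![y (.inr (some j)), y (.inl (σ.symm (.inl j)))]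

theorem zpr_vr [DecidableEq J] (a : Option J) (c : ℂ) (y : Fin n ⊕ Option J → ℂ) (o : Option D) :
    zpr_v σ (rot (zpr_fac σ) a c y) o = (if none = a then c else 1) * zpr_v σ y o := by
  cases a <;> cases o <;> simp [zpr_v, rot, zpr_fac]

theorem zpr_ur [DecidableEq J] (a : Option J) (c : ℂ) (y : Fin n ⊕ Option J → ℂ) (j : J) :
    zpr_u σ (rot (zpr_fac σ) a c y) j = (if some j = a then c else 1) • zpr_u σ y j := by
  by_cases h : some j = a <;> simp [zpr_u, rot, zpr_fac, h]

theorem zpr_un {y : Fin n ⊕ Option J → ℂ} (h : zNZ (zpr_fac σ) y) (j : J) : zpr_u σ y j ≠ 0 := by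
  obtain ⟨i, h1, h2⟩ := h (some j)
  intro h0
  rcases i with k | o
  · obtain ⟨s, rfl⟩ := σ.symm.surjective k
    rcases s with j' | d
    · obtain rfl : j' = j := by simpa [zpr_fac] using h1
      exact h2 (congrFun h0 1)
    · simp [zpr_fac] at h1
  · obtain rfl : o = some j := h1
    exact h2 (congrFun h0 0)

theorem zpr_vn {y : Fin n ⊕ Option J → ℂ} (h : zNZ (zpr_fac σ) y) : zpr_v σ y ≠ 0 := by
  obtain ⟨i, h1, h2⟩ := h none
  intro h0
  rcases i with k | o
  · obtain ⟨s, rfl⟩ := σ.symm.surjective k
    rcases s with j' | d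
    · simp [zpr_fac] at h1
    · exact h2 (congrFun h0 (some d))
  · obtain rfl : o = none := h1
    exact h2 (congrFun h0 none)

theorem zpr_vc (o : Option D) : Continuous fun y : Fin n ⊕ Option J → ℂ => zpr_v σ y o := by
  cases o <;> exact continuous_apply _

theorem zpr_uc (j : J) : Continuous fun y : Fin n ⊕ Option J → ℂ => zpr_u σ y j := by
  refine continuous_pi fun c => ?_
  fin_cases c <;> exact continuous_apply _

end

theorem obs_zeroY {X : Type} [MetricSpace X] [CompactSpace X] {m : ℕ} {A B : Fin m → Set X}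
    (hE : EssY A B) {J D : Type} [Fintype J] [DecidableEq J] [Fintype D]
    {H : (Fin 2 → ℂ) → S2} (hH : ContinuousOn H {u | u ≠ 0})
    (hH' : ∀ (c : ℂ) u, ‖c‖ = 1 → H (c • u) = H u)
    {R : X × (J → S2) → Fin m → ℝ} (hR : MirH A B R)
    (cD : D → Option D → X × (J → S2) → ℂ) (hD : ∀ d o, Continuous (cD d o))
    (cJ : J → Fin 2 → Option D → X → ℂ) (hJ : ∀ j s o, Continuous (cJ j s o)) :
    ∃ (τ : X) (v : Option D → ℂ) (u : J → Fin 2 → ℂ), v ≠ 0 ∧ (∀ j, u j ≠ 0) ∧
      R (τ, fun j => H (u j)) = 0 ∧ (∀ d, ∑ o, v o * cD d o (τ, fun j => H (u j)) = 0) ∧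
      ∀ j, ∑ s, u j s * ∑ o, v o * cJ j s o τ = 0 := by
  obtain ⟨n, σ, hσ⟩ := bup_sig J D
  have e1 : ∀ a c, ‖c‖ = 1 → ∀ y, (fun j => H (zpr_u σ (rot (zpr_fac σ) a c y) j)) =
      fun j => H (zpr_u σ y j) := fun a c hc y => funext fun j => by
    rw [zpr_ur]
    refine hH' _ _ ?_
    split_ifs
    · exact hc
    · exact norm_one
  have c1 : ContinuousOn (fun z : X × (Fin n ⊕ Option J → ℂ) =>
      (z.1, fun j => H (zpr_u σ z.2 j))) {z | zNZ (zpr_fac σ) z.2} :=
    continuousOn_fst.prodMk (continuousOn_pi.2 fun j =>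
      hH.comp ((zpr_uc σ j).comp continuous_snd).continuousOn fun z hz => zpr_un σ hz j)
  obtain ⟨x, y, hy, hr, h0⟩ := bu_blocksY hE (zpr_fac σ)
    (fun x y => R (x, fun j => H (zpr_u σ y j)))
    (fun x y k => Sum.elim (fun j => ∑ s, zpr_u σ y j s * ∑ o, zpr_v σ y o * cJ j s o x)
      (fun d => ∑ o, zpr_v σ y o * cD d o (x, fun j => H (zpr_u σ y j))) (σ k))
    (hR.cont.comp_continuousOn c1)
    (continuousOn_pi.2 fun k => by
      rcases σ k with j | d
      · exact Continuous.continuousOn (continuous_finsetSum _ fun s _ =>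
          ((continuous_apply s).comp ((zpr_uc σ j).comp continuous_snd)).mul
            (continuous_finsetSum _ fun o _ => ((zpr_vc σ o).comp continuous_snd).mul
              ((hJ j s o).comp continuous_fst)))
      · exact continuousOn_finsetSum _ fun o _ =>
          ((zpr_vc σ o).comp continuous_snd).continuousOn.mul ((hD d o).comp_continuousOn c1))
    (fun a c hc x y => by rw [e1 a c hc])
    (fun i x hx y => hR.lo _ i hx) (fun i x hx y => hR.hi _ i hx)
    (fun k a => if a = none ∨ a = zpr_fac σ k then 1 else 0)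
    (fun k a c hc x y => by
      obtain ⟨s, rfl⟩ := σ.symm.surjective k
      rcases s with j | d
      · have e2 : c ^ (if a = none ∨ a = zpr_fac σ (σ.symm (.inl j)) then 1 else 0) =
            (if some j = a then c else 1) * if none = a then c else 1 := by
          rcases a with _ | j'
          · simp
          · by_cases h : j = j'
            · simp [zpr_fac, h]
            · simp [zpr_fac, h, Ne.symm h]
        rw [e2]
        simp only [Equiv.apply_symm_apply, Sum.elim_inl, zpr_ur, zpr_vr, Pi.smul_apply,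
          smul_eq_mul, Finset.mul_sum]
        exact Finset.sum_congr rfl fun s _ => Finset.sum_congr rfl fun o _ => by ring
      · have e2 : c ^ (if a = none ∨ a = zpr_fac σ (σ.symm (.inr d)) then 1 else 0) =
            if none = a then c else 1 := by
          rcases a with _ | j' <;> simp [zpr_fac]
        rw [e2]
        simp only [Equiv.apply_symm_apply, Sum.elim_inr, e1 a c hc, zpr_vr, Finset.mul_sum,
          mul_assoc])
    (fun k => if_pos (Or.inr rfl))
    (fun k k' hk hne => if_neg (by
      obtain ⟨s, rfl⟩ := σ.symm.surjective k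
      obtain ⟨s', rfl⟩ := σ.symm.surjective k'
      rintro (h | h)
      · rcases s' with j' | d'
        · simp [zpr_fac] at h
        · rcases s with j | d
          · exact hσ d' j hk
          · exact hne (by simp [zpr_fac])
      · exact hne h))
  refine ⟨x, zpr_v σ y, zpr_u σ y, zpr_vn σ hy, zpr_un σ hy, hr, fun d => ?_, fun j => ?_⟩
  · simpa using congrFun h0 (σ.symm (.inr d))
  · have h1 := congrFun h0 (σ.symm (.inl j))
    rwa [Equiv.apply_symm_apply] at h1

end Vale.Agent.P093
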