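import Vale.Agent.P093C.Core
import Vale.Agent.P093Z.Obs

/-! P093Z Core. The lower bound. -/

open Filter Topology Set
open scoped ComplexOrder

noncomputable section

namespace Vale.Agent.P093

variable {X : Type} [MetricSpace X] [CompactSpace X] {h : X ≃ₜ X} {q p : ℕ} {L : Type}
  [Fintype L] [DecidableEq L] {g : X → ℝ} {ρ : L → X → Fin 3 → ℝ} {ε : ℝ}

omit [CompactSpace X] in
theorem crc_mats_Y (hM : MarkY h q p ε g ρ) :
    ∃ A₀ B₀ D₀ : Matrix (Fin p ⊕ L × Fin 2) (Fin p ⊕ L × Fin 2) C(X, ℂ),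
      (∀ x, cor_ev A₀ x = matA p L) ∧ (∀ x, cor_ev B₀ x = matB p fun l => ρ l x) ∧
      star A₀ = A₀ ∧ A₀ - A₀ * A₀ = star 0 * 0 ∧ star B₀ = B₀ ∧ B₀ - B₀ * B₀ = star D₀ * D₀ := by
  obtain ⟨A₀, hA⟩ := cor_lift (1 : C(X, ℂ)) (fun _ => matA p L) fun _ _ => continuous_const
  obtain ⟨B₀, hB⟩ := cor_lift (1 : C(X, ℂ)) (fun x => matB p fun l => ρ l x) fun i j =>
    (matB_cont i j).comp (continuous_pi hM.cont)
  obtain ⟨D₀, hD⟩ := cor_lift (ι := Fin p ⊕ L × Fin 2) (1 : C(X, ℂ)) (fun x => Matrix.diagonal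
    (Sum.elim (fun _ => 0) fun a => ((√((1 - ∑ c, ρ a.1 x c ^ 2) / 4) : ℝ) : ℂ))) fun i j => by
      simp only [Matrix.diagonal_apply]
      split_ifs
      · rcases i with i | i
        · exact continuous_const
        · have := hM.cont i.1
          simp only [Sum.elim_inr]
          fun_prop
      · exact continuous_const
  simp only [ContinuousMap.one_apply, one_smul] at hA hB hD
  refine ⟨A₀, B₀, D₀, hA, hB, cor_ext fun x => ?_, ?_, cor_ext fun x => ?_, cor_ext fun x => ?_⟩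
  · rw [cor_ev_star, hA, matA_star]
  · rw [mul_zero, sub_eq_zero]
    exact cor_ext fun x => by rw [cor_ev_mul, hA, matA_sq]
  · rw [cor_ev_star, hB, matB_star]
  · rw [cor_ev_sub, cor_ev_mul, cor_ev_mul, cor_ev_star, hB, hD, matB_sq,
      Matrix.star_eq_conjTranspose, Matrix.diagonal_conjTranspose, Matrix.diagonal_mul_diagonal]
    refine congrArg (fun f => Matrix.diagonal f) (funext fun i => ?_)
    rcases i with i | i
    · simp only [Sum.elim_inl, mul_zero]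
    · have h0 : 0 ≤ (1 - ∑ c, ρ i.1 x c ^ 2) / 4 := by linarith [hM.ball i.1 x]
      simp only [Sum.elim_inr, Pi.star_apply, Complex.star_def, Complex.conj_ofReal]
      rw [← Complex.ofReal_mul, Real.mul_self_sqrt h0]

omit [CompactSpace X] in
theorem crc_A_Y (hM : MarkY h q p ε g ρ) {A : Type} [CStarAlgebra A]
    [PartialOrder A] [StarOrderedRing A] (π : C(X, ℂ) →⋆ₐ[ℂ] A) {n : ℕ}
    (σ : Fin n ≃ Fin p ⊕ L × Fin 2) :
    ∃ (A₀ : Matrix (Fin p ⊕ L × Fin 2) (Fin p ⊕ L × Fin 2) C(X, ℂ)) (GE : C(X, ℂ)),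
      (∀ x, cor_ev A₀ x = ((cl01 (4 * g x - 1) : ℝ) : ℂ) • matA p L) ∧
      (∀ x, GE x = ((cl01 (4 * g x) : ℝ) : ℂ)) ∧ 0 ≤ cor_F π σ A₀ ∧
      ∀ τ : A →ₗ[ℂ] ℂ, IsTracial τ → dimFn τ (cor_F π σ A₀) ≤ p * (τ (π GE)).re := by
  obtain ⟨A₁, -, -, hA, -, a1, a2, -, -⟩ := crc_mats_Y hM
  have gc := hM.urp.cont
  have cA : Continuous fun x => cl01 (4 * g x - 1) := crc_clc.comp (by fun_prop)
  have cE : Continuous fun x => cl01 (4 * g x) := crc_clc.comp (by fun_prop)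
  obtain ⟨GA, hGA⟩ : ∃ GA : C(X, ℂ), ∀ x, GA x = ((cl01 (4 * g x - 1) : ℝ) : ℂ) :=
    ⟨⟨_, Complex.continuous_ofReal.comp cA⟩, fun _ => rfl⟩
  obtain ⟨GE, hGE⟩ : ∃ GE : C(X, ℂ), ∀ x, GE x = ((cl01 (4 * g x) : ℝ) : ℂ) :=
    ⟨⟨_, Complex.continuous_ofReal.comp cE⟩, fun _ => rfl⟩
  obtain ⟨A₀, hA₀⟩ := cor_lift GA (fun _ => matA p L) fun _ _ => continuous_const
  obtain ⟨E₀, hE₀⟩ := cor_lift GE (fun _ => matA p L) fun _ _ => continuous_const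
  obtain ⟨a0, a3⟩ := crc_unit π σ (N₀ := A₀) a1 a2 cA (fun _ => crc_cl0 _) (fun _ => crc_cl1 _)
    fun x => by rw [hA₀, hA, hGA]
  obtain ⟨e0, e3⟩ := crc_unit π σ (N₀ := E₀) a1 a2 cE (fun _ => crc_cl0 _) (fun _ => crc_cl1 _)
    fun x => by rw [hE₀, hA, hGE]
  have hea : cor_F π σ E₀ * cor_F π σ A₀ = cor_F π σ A₀ := by
    rw [cor_F_mul]
    refine congrArg _ (cor_ext fun x => ?_)
    rw [cor_ev_mul, hE₀, hA₀, smul_mul_smul_comm, matA_sq, hGA, hGE, ← Complex.ofReal_mul, crc_mul]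
  refine ⟨A₀, GE, fun x => by rw [hA₀, hGA], hGE, a0, fun τ ht => ?_⟩
  have d1 := dimFn_le ht a0 a3 e0 e3 hea
  rwa [cor_F_tr π σ hE₀ fun _ => matA_tr, map_smul, crc_re] at d1

omit [CompactSpace X] in
theorem crc_B_Y (hM : MarkY h q p ε g ρ) {A : Type} [CStarAlgebra A]
    [PartialOrder A] [StarOrderedRing A] (π : C(X, ℂ) →⋆ₐ[ℂ] A) {n : ℕ}
    (σ : Fin n ≃ Fin p ⊕ L × Fin 2) :
    ∃ (B₀ : Matrix (Fin p ⊕ L × Fin 2) (Fin p ⊕ L × Fin 2) C(X, ℂ)) (G : C(X, ℂ)),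
      (∀ x, cor_ev B₀ x = (g x : ℂ) • matB p fun l => ρ l x) ∧ (∀ x, G x = g x) ∧
      0 ≤ cor_F π σ B₀ ∧ ∀ τ : A →ₗ[ℂ] ℂ, IsTracial τ →
        Fintype.card L * (τ (π G)).re ≤ dimFn τ (cor_F π σ B₀) := by
  obtain ⟨-, B₁, D₁, -, hB, -, -, b1, b2⟩ := crc_mats_Y hM
  have gc := hM.urp.cont
  obtain ⟨G, hG⟩ : ∃ G : C(X, ℂ), ∀ x, G x = g x :=
    ⟨⟨_, Complex.continuous_ofReal.comp gc⟩, fun _ => rfl⟩
  obtain ⟨B₀, hB₀⟩ := cor_lift G (fun x => matB p fun l => ρ l x) fun i j =>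
    (matB_cont i j).comp (continuous_pi hM.cont)
  obtain ⟨b0, b3⟩ := crc_unit π σ (N₀ := B₀) b1 b2 gc hM.urp.nonneg hM.urp.le_one
    fun x => by rw [hB₀, hB, hG]
  refine ⟨B₀, G, fun x => by rw [hB₀, hG], hG, b0, fun τ ht => ?_⟩
  have d2 := le_dimFn ht b0 b3
  rwa [cor_F_tr π σ hB₀ fun x => matB_tr _, map_smul, crc_re] at d2

omit [CompactSpace X] in
theorem crc_key_Y (hM : MarkY h q p ε g ρ) (hq : 0 < q) {r : ℝ}
    (hr : r < ((Fintype.card L : ℝ) * (1 - ε) - p) / q) {A : Type} [CStarAlgebra A]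
    [PartialOrder A] [StarOrderedRing A] (π : C(X, ℂ) →⋆ₐ[ℂ] A) {n : ℕ}
    (σ : Fin n ≃ Fin p ⊕ L × Fin 2) :
    ∃ A₀ B₀ : Matrix (Fin p ⊕ L × Fin 2) (Fin p ⊕ L × Fin 2) C(X, ℂ),
      (∀ x, cor_ev A₀ x = ((cl01 (4 * g x - 1) : ℝ) : ℂ) • matA p L) ∧
      (∀ x, cor_ev B₀ x = (g x : ℂ) • matB p fun l => ρ l x) ∧ 0 ≤ cor_F π σ A₀ ∧
      0 ≤ cor_F π σ B₀ ∧ ∀ τ : A →ₗ[ℂ] ℂ, IsTracial τ →
        (∀ f, τ (π (f.comp ⟨h, h.continuous⟩)) = τ (π f)) →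
        dimFn τ (cor_F π σ A₀) + r < dimFn τ (cor_F π σ B₀) := by
  obtain ⟨A₀, GE, hA, hE, a0, d1⟩ := crc_A_Y hM π σ
  obtain ⟨B₀, G, hB, hG, b0, d2⟩ := crc_B_Y hM π σ
  refine ⟨A₀, B₀, hA, hB, a0, b0, fun τ ht hτ => ?_⟩
  obtain ⟨t1, t2⟩ := crc_tr hM.urp hG hE π ht hτ
  exact crc_num (Nat.cast_pos.2 hq) (Nat.cast_nonneg _) (Nat.cast_nonneg _) hr t1 t2 (d1 τ ht)
    (d2 τ ht)

theorem crc_not_Y [PartialOrder (cross h)] [StarOrderedRing (cross h)] (hM : MarkY h q p ε g ρ)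
    (hq : 0 < q) {r : ℝ} (hr : r < ((Fintype.card L : ℝ) * (1 - ε) - p) / q) :
    ¬ IsBound (cross h) r := by
  intro hb
  obtain ⟨π, hπ, hτ⟩ := exists_rep h
  let σ := (Fintype.equivFin (Fin p ⊕ L × Fin 2)).symm
  obtain ⟨A₀, B₀, hA, hB, a0, b0, hd⟩ := crc_key_Y hM hq hr π σ
  obtain ⟨x, hx⟩ := hb _ _ _ a0 b0 fun τ ht => hd τ ht (hτ τ ht)
  obtain ⟨k, hk⟩ := (Metric.tendsto_nhds.1 hx (1 / (Fintype.card (Fin p ⊕ L × Fin 2) + 1))
    (by positivity)).exists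
  rw [dist_eq_norm] at hk
  refine not_closeY hM (gA := fun x => ((cl01 (4 * g x - 1) : ℝ) : ℂ))
    (fun y hy => by rw [crc_hi (by linarith), Complex.ofReal_one])
    (A := fun i j => π (A₀ i j)) (B := fun i j => π (B₀ i j))
    (x := fun i j => x k (σ.symm i) (σ.symm j)) (fun i j ξ a => ?_) (fun i j ξ a => ?_)
    (fun i j => (x k (σ.symm i) (σ.symm j)).2) fun i j => ?_
  · rw [hπ]
    exact congrArg (· * ξ a) (congrFun (congrFun (hA _) i) j)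
  · rw [hπ]
    exact congrArg (· * ξ a) (congrFun (congrFun (hB _) i) j)
  · refine lt_of_eq_of_lt ?_
      ((CStarMatrix.norm_entry_le_norm (i := σ.symm i) (j := σ.symm j)).trans_lt hk)
    have e : (star (x k) * cor_F π σ B₀ * x k - cor_F π σ A₀) (σ.symm i) (σ.symm j) =
        ∑ a, ∑ b, star (x k (σ.symm a) (σ.symm i)) * π (B₀ a b) * x k (σ.symm b) (σ.symm j) -
          π (A₀ i j) := by
      rw [CStarMatrix.sub_apply, CStarMatrix.mul_apply, cor_F_apply, Equiv.apply_symm_apply,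
        Equiv.apply_symm_apply, Finset.sum_comm, ← Equiv.sum_comp σ.symm]
      congr 1
      refine Finset.sum_congr rfl fun b _ => ?_
      rw [CStarMatrix.mul_apply, Finset.sum_mul, ← Equiv.sum_comp σ.symm]
      refine Finset.sum_congr rfl fun a _ => ?_
      rw [CStarMatrix.star_apply, cor_F_apply, Equiv.apply_symm_apply, Equiv.apply_symm_apply]
    rw [e]
    exact (congrArg norm (cor_coe (cross h) _ _ _ _)).symm

theorem le_rcC_Y (hM : MarkY h q p ε g ρ) (hq : 0 < q) :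
    ENNReal.ofReal (((Fintype.card L : ℝ) * (1 - ε) - p) / q) ≤ rc (cross h) := by
  let := CStarAlgebra.spectralOrder (cross h)
  have := CStarAlgebra.spectralOrderedRing (cross h)
  refine le_iInf₂ fun r hr => ?_
  rw [← ENNReal.ofReal_coe_nnreal]
  exact ENNReal.ofReal_le_ofReal (not_lt.1 fun hlt => crc_not_Y hM hq hlt hr)

end Vale.Agent.P093
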