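import Vale.Agent.P093Z.Ch

/-! P093Z Cup (TASK). Cup products; compare `buB_cons`, `buB_zero` in `Vale/Agent/P209N/C/BU.lean` and `blk_B` in `P093E/Blk.lean`. Use the lemmas of `Ch`. Helper names start with `cup_`. -/

open Filter Topology Set

noncomputable section

namespace Vale.Agent.P093

variable {X K : Type} [CommRing K]

theorem cup_cons (φ : List X → K) (x : X) (l : List X) :
    zD φ (x :: l) = φ l - zD (fun w => φ (x :: w)) l := rfl

theorem cup_cyc {β : List X → K} (hβ : ∀ l, zD β l = 0) (x : X) (l : List X) :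
    zD (fun w => β (x :: w)) l = β l := (sub_eq_zero.1 ((cup_cons β x l).symm.trans (hβ _))).symm

theorem zC_cons (s : X → K) {β : List X → K} (hβ : ∀ l, zD β l = 0) (x y : X) (l : List X) :
    zD (zC s β) (x :: y :: l) = (s y - s x) * β (y :: l) := by
  have h : zD (zC s β) (x :: y :: l) =
      s y * β (y :: l) - zD (fun w => s x * β (x :: w)) (y :: l) := rfl
  rw [h, zD_mul, cup_cyc hβ, sub_mul]

theorem zE_cons (κ : X → X → K) {β : List X → K} (hβ : ∀ l, zD β l = 0) (x y z : X)
    (l : List X) : zD (zE κ β) (x :: y :: z :: l) = (κ y z - κ x z + κ x y) * β (z :: l) := by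
  have h : zD (zE κ β) (x :: y :: z :: l) = κ y z * β (z :: l) -
      (κ x z * β (z :: l) - zD (fun w => κ x y * β (y :: w)) (z :: l)) := rfl
  rw [h, zD_mul, cup_cyc hβ]
  ring

theorem zB_zD (s : ℕ → X → K) (k : ℕ) (l : List X) : zD (zB s k) l = 0 := by
  cases k <;> exact zD_zD _ l

theorem zG_zD (s : ℕ → X → K) (m : ℕ) (κ : ℕ → X → X → K) (k : ℕ) (l : List X) :
    zD (zG (zB s m) κ k) l = 0 := by
  cases k
  · exact zB_zD s m l
  · exact zD_zD _ l

theorem zG_nil (s : ℕ → X → K) (m : ℕ) (κ : ℕ → X → X → K) (k : ℕ) :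
    zG (zB s m) κ k [] = 0 := by
  cases k
  · cases m <;> rfl
  · rfl

theorem zB_map {Y : Type} (g : X → Y) (s : ℕ → Y → K) (k : ℕ) (l : List X) :
    zB s k (l.map g) = zB (fun k x => s k (g x)) k l := by
  induction k generalizing l with
  | zero => simp only [zB, ← zD_map, List.length_map]
  | succ k ih =>
    rw [zB, zB, ← zD_map]
    refine congrArg (fun φ => zD φ l) (funext fun w => ?_)
    cases w with
    | nil => rfl
    | cons x w => exact congrArg (fun t => s k (g x) * t) (ih (x :: w))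

theorem zB_congr {s s' : ℕ → X → K} {k : ℕ} (h : ∀ i < k, s i = s' i) : zB s k = zB s' k := by
  induction k with
  | zero => rfl
  | succ k ih => rw [zB, zB, h k k.lt_succ_self, ih fun i hi => h i (hi.trans k.lt_succ_self)]

theorem zB_zero (s : ℕ → X → K) (k : ℕ) (l : List X) (hl : l.length = k + 1)
    (h : ∃ i < k, ∀ x ∈ l, ∀ y ∈ l, s i x = s i y) : zB s k l = 0 := by
  obtain ⟨i, hi, h⟩ := h
  induction k generalizing l with
  | zero => omega
  | succ k ih =>
    match l, hl, h with
    | x :: y :: l, hl, h =>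
      rw [zB, zC_cons _ (zB_zD s k)]
      rcases Nat.lt_succ_iff_lt_or_eq.1 hi with hi | rfl
      · rw [ih (y :: l) (by simpa using hl) hi fun a ha b hb =>
          h a (List.mem_cons_of_mem _ ha) b (List.mem_cons_of_mem _ hb), mul_zero]
      · rw [h y (by simp) x (by simp), sub_self, zero_mul]

theorem zG_zero (s : ℕ → X → K) (m : ℕ) (κ : ℕ → X → X → K) (k : ℕ) (l : List X)
    (hl : l.length = m + 2 * k + 1) (h : (∃ i < m, ∀ x ∈ l, ∀ y ∈ l, s i x = s i y) ∨
      ∃ j < k, ∀ x ∈ l, ∀ y ∈ l, ∀ z ∈ l, κ j y z - κ j x z + κ j x y = 0) :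
    zG (zB s m) κ k l = 0 := by
  induction k generalizing l with
  | zero =>
    rcases h with h | ⟨j, hj, -⟩
    · exact zB_zero s m l hl h
    · omega
  | succ k ih =>
    match l, hl, h with
    | [], hl, _ => simp at hl
    | [_], hl, _ => simp at hl
    | [_, _], hl, _ =>
      simp only [List.length_cons, List.length_nil] at hl
      omega
    | x :: y :: z :: l, hl, h =>
      have hl' : (z :: l).length = m + 2 * k + 1 := by
        simp only [List.length_cons] at hl ⊢
        omega
      have hm : ∀ a ∈ z :: l, a ∈ x :: y :: z :: l := fun a ha =>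
        List.mem_cons_of_mem _ (List.mem_cons_of_mem _ ha)
      rw [zG, zE_cons _ (zG_zD s m κ k)]
      rcases h with ⟨i, hi, h1⟩ | ⟨j, hj, h1⟩
      · rw [ih _ hl' (Or.inl ⟨i, hi, fun a ha b hb => h1 a (hm a ha) b (hm b hb)⟩), mul_zero]
      · rcases Nat.lt_succ_iff_lt_or_eq.1 hj with hj | hj
        · rw [ih _ hl' (Or.inr ⟨j, hj, fun a ha b hb c hc =>
            h1 a (hm a ha) b (hm b hb) c (hm c hc)⟩), mul_zero]
        · rw [← hj, h1 x (by simp) y (by simp) z (by simp), zero_mul]

theorem zG_map {s : ℕ → X → K} {m : ℕ} {κ : ℕ → X → X → K} {k : ℕ} {T : X → X}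
    (hs : ∀ i < m, ∀ x, s i (T x) = s i x) (hκ : ∀ j < k, ∀ x y z,
      κ j (T y) (T z) - κ j (T x) (T z) + κ j (T x) (T y) = κ j y z - κ j x z + κ j x y)
    (l : List X) : zG (zB s m) κ k (l.map T) = zG (zB s m) κ k l := by
  induction k generalizing l with
  | zero => exact (zB_map T s m l).trans (congrFun (zB_congr fun i hi => funext (hs i hi)) l)
  | succ k ih =>
    match l with
    | [] => rfl
    | [_] => rfl
    | [_, _] => rfl
    | x :: y :: z :: l =>
      have h := ih (fun j hj => hκ j (hj.trans k.lt_succ_self)) (z :: l)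
      simp only [List.map_cons] at h ⊢
      rw [zG, zE_cons _ (zG_zD s m κ k), zE_cons _ (zG_zD s m κ k), hκ k k.lt_succ_self, h]

end Vale.Agent.P093
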