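import Vale.Agent.P093C.Obs
import Vale.Agent.P093Z.Defs

/-! P093Z Hpf (TASK). Complex ports of `exists_hopf` (`P093/Emb.lean`), `exists_code` (`P093C/RS.lean`; apply it to the real or the imaginary part of `v`), `obc_fin`, `obc_ne` (`P093C/Obs.lean`). `H u = (‖u 0‖ ^ 2 - ‖u 1‖ ^ 2, 2 re (conj (u 0) * u 1), -2 im (conj (u 0) * u 1)) / ∑ c, ‖u c‖ ^ 2`. Helper names start with `hpf_`. -/

open Filter Topology Set

noncomputable section

namespace Vale.Agent.P093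

/-- The Hopf map. -/
def hpf_v (u : Fin 2 → ℂ) : Fin 3 → ℝ :=
  ![(‖u 0‖ ^ 2 - ‖u 1‖ ^ 2) / ∑ c, ‖u c‖ ^ 2, 2 * (starRingEnd ℂ (u 0) * u 1).re / ∑ c, ‖u c‖ ^ 2,
    -2 * (starRingEnd ℂ (u 0) * u 1).im / ∑ c, ‖u c‖ ^ 2]

theorem hpf_ne {u : Fin 2 → ℂ} (h : u ≠ 0) : ∑ c, ‖u c‖ ^ 2 ≠ 0 := fun h' =>
  h (funext fun c => norm_eq_zero.1 (pow_eq_zero_iff two_ne_zero |>.1
    ((Finset.sum_eq_zero_iff_of_nonneg fun _ _ => sq_nonneg _).1 h' c (Finset.mem_univ c))))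

theorem hpf_sq {u : Fin 2 → ℂ} (h : u ≠ 0) : ∑ c, hpf_v u c ^ 2 = 1 := by
  have h1 := hpf_ne h
  have h2 : (starRingEnd ℂ (u 0) * u 1).re ^ 2 + (starRingEnd ℂ (u 0) * u 1).im ^ 2 =
      ‖u 0‖ ^ 2 * ‖u 1‖ ^ 2 := by
    rw [← Complex.norm_conj (u 0), ← mul_pow, ← norm_mul, Complex.sq_norm, Complex.normSq_apply]
    ring
  rw [Fin.sum_univ_three]
  simp only [hpf_v, Matrix.cons_val_zero, Matrix.cons_val_one, Matrix.cons_val]
  rw [div_pow, div_pow, div_pow, ← add_div, ← add_div, div_eq_one_iff_eq (pow_ne_zero 2 h1),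
    Fin.sum_univ_two]
  linear_combination 4 * h2

theorem hpf_inv {c : ℂ} (hc : ‖c‖ = 1) (u : Fin 2 → ℂ) : hpf_v (c • u) = hpf_v u := by
  have h1 : ∀ i, ‖(c • u) i‖ = ‖u i‖ := fun i => by
    rw [Pi.smul_apply, norm_smul, hc, one_mul]
  have h2 : starRingEnd ℂ ((c • u) 0) * (c • u) 1 = starRingEnd ℂ (u 0) * u 1 := by
    have h3 : starRingEnd ℂ c * c = 1 := by
      rw [Complex.conj_mul', hc]
      simp
    rw [Pi.smul_apply, Pi.smul_apply, smul_eq_mul, smul_eq_mul, map_mul]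
    linear_combination (starRingEnd ℂ (u 0) * u 1) * h3
  simp only [hpf_v, h1, h2]

theorem hpf_bott {u : Fin 2 → ℂ} (hu : u ≠ 0) (s s' : Fin 2) :
    ((∑ c, ‖u c‖ ^ 2 : ℝ) : ℂ) * bott (hpf_v u) s s' = starRingEnd ℂ (u s) * u s' := by
  have h1 : ((∑ c, ‖u c‖ ^ 2 : ℝ) : ℂ) ≠ 0 := Complex.ofReal_ne_zero.2 (hpf_ne hu)
  obtain ⟨N, hN⟩ : ∃ N : ℂ, N = ((∑ c, ‖u c‖ ^ 2 : ℝ) : ℂ) := ⟨_, rfl⟩
  have h2 : N = (‖u 0‖ : ℂ) ^ 2 + (‖u 1‖ : ℂ) ^ 2 := by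
    rw [hN, Fin.sum_univ_two]
    push_cast
    rfl
  obtain ⟨w, hw⟩ : ∃ w, w = starRingEnd ℂ (u 0) * u 1 := ⟨_, rfl⟩
  have e0 : N * (hpf_v u 0 : ℂ) = (‖u 0‖ : ℂ) ^ 2 - (‖u 1‖ : ℂ) ^ 2 := by
    simp only [hpf_v, Matrix.cons_val_zero]
    rw [Complex.ofReal_div, hN, mul_div_cancel₀ _ h1]
    push_cast
    rfl
  have e1 : N * (hpf_v u 1 : ℂ) = 2 * w.re := by
    simp only [hpf_v, Matrix.cons_val_zero, Matrix.cons_val_one]
    rw [Complex.ofReal_div, hN, mul_div_cancel₀ _ h1, hw]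
    push_cast
    rfl
  have e2 : N * (hpf_v u 2 : ℂ) = -2 * w.im := by
    simp only [hpf_v, Matrix.cons_val]
    rw [Complex.ofReal_div, hN, mul_div_cancel₀ _ h1, hw]
    push_cast
    rfl
  have e3 := Complex.re_add_im w
  have e4 : (w.re : ℂ) - w.im * Complex.I = starRingEnd ℂ (u 1) * u 0 := by
    have e5 : starRingEnd ℂ w = starRingEnd ℂ (u 1) * u 0 := by
      rw [hw, map_mul, Complex.conj_conj, mul_comm]
    rw [← e5]
    exact Complex.ext (by simp) (by simp)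
  have a0 := Complex.conj_mul' (u 0)
  have a1 := Complex.conj_mul' (u 1)
  rw [← hN]
  fin_cases s <;> fin_cases s'
  · show N * ((1 + (hpf_v u 0 : ℂ)) / 2) = starRingEnd ℂ (u 0) * u 0
    linear_combination (1 / 2 : ℂ) * e0 + (1 / 2 : ℂ) * h2 - a0
  · show N * (((hpf_v u 1 : ℂ) - hpf_v u 2 * Complex.I) / 2) = starRingEnd ℂ (u 0) * u 1
    linear_combination (1 / 2 : ℂ) * e1 - (1 / 2 : ℂ) * Complex.I * e2 + e3 + hw
  · show N * (((hpf_v u 1 : ℂ) + hpf_v u 2 * Complex.I) / 2) = starRingEnd ℂ (u 1) * u 0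
    linear_combination (1 / 2 : ℂ) * e1 + (1 / 2 : ℂ) * Complex.I * e2 + e4
  · show N * ((1 - (hpf_v u 0 : ℂ)) / 2) = starRingEnd ℂ (u 1) * u 1
    linear_combination -(1 / 2 : ℂ) * e0 + (1 / 2 : ℂ) * h2 - a1

theorem exists_hopfY : ∃ H : (Fin 2 → ℂ) → S2, ContinuousOn H {u | u ≠ 0} ∧
    (∀ (c : ℂ) u, ‖c‖ = 1 → H (c • u) = H u) ∧ ∀ u, u ≠ 0 → ∀ s s',
      ((∑ c, ‖u c‖ ^ 2 : ℝ) : ℂ) * bott (H u).1 s s' = starRingEnd ℂ (u s) * u s' := by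
  classical
  let H : (Fin 2 → ℂ) → S2 := fun u =>
    if h : u = 0 then ⟨![1, 0, 0], by simp [Fin.sum_univ_three]⟩ else ⟨hpf_v u, hpf_sq h⟩
  have hH : ∀ u, u ≠ 0 → (H u).1 = hpf_v u := fun u h => by simp only [H, dif_neg h]
  refine ⟨H, ?_, fun c u hc => ?_, fun u hu s s' => ?_⟩
  · refine IsInducing.subtypeVal.continuousOn_iff.2
      (ContinuousOn.congr (f := hpf_v) (continuousOn_pi.2 fun c => ?_) fun u hu => hH u hu)
    fin_cases c
    all_goals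
      simp only [hpf_v]
      exact ContinuousOn.div (by fun_prop) (by fun_prop) fun u hu => hpf_ne hu
  · by_cases h : u = 0
    · rw [h, smul_zero]
    · have c0 : c ≠ 0 := norm_ne_zero_iff.1 (hc ▸ one_ne_zero)
      apply Subtype.ext
      rw [hH u h, hH (c • u) (smul_ne_zero c0 h), hpf_inv hc]
  · rw [hH u hu]
    exact hpf_bott hu s s'

theorem exists_codeY (O A : Type) [Fintype O] [Fintype A] : ∃ E : O → A → ℝ,
    ∀ v : O → ℂ, v ≠ 0 → {a | ∑ o, v o * E o a = 0}.ncard < Fintype.card O := by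
  obtain ⟨E, hE⟩ := exists_code O A
  refine ⟨E, fun v hv => ?_⟩
  by_cases h : (fun o => (v o).re) = 0
  · have h1 : (fun o => (v o).im) ≠ 0 := fun h1 =>
      hv (funext fun o => Complex.ext (congrFun h o) (congrFun h1 o))
    refine lt_of_le_of_lt (ncard_le_ncard (fun a ha => ?_) (toFinite _)) (hE _ h1)
    simpa using congrArg Complex.im (show ∑ o, v o * E o a = 0 from ha)
  · refine lt_of_le_of_lt (ncard_le_ncard (fun a ha => ?_) (toFinite _)) (hE _ h)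
    simpa using congrArg Complex.re (show ∑ o, v o * E o a = 0 from ha)

theorem obc_neY {M o n p : ℕ} {Off : Finset (Fin M)} (ho : Off.card ≤ o)
    (hn : n + o * p ≤ M * p) {v : Fin M × Fin p → ℂ} (hv : {a | v a = 0}.ncard < n) :
    ∃ a, a.1 ∉ Off ∧ v a ≠ 0 := by
  by_contra hc
  push Not at hc
  have h1 := ncard_le_ncard (s := ↑(Offᶜ ×ˢ (Finset.univ : Finset (Fin p)))) (t := {a | v a = 0})
    (fun a ha => hc a (Finset.mem_compl.1 (Finset.mem_product.1 (Finset.mem_coe.1 ha)).1))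
    (toFinite _)
  rw [ncard_coe_finset, Finset.card_product, Finset.card_univ, Finset.card_compl, Fintype.card_fin,
    Fintype.card_fin, Nat.sub_mul] at h1
  have h2 := Nat.mul_le_mul_right p ho
  omega

variable {X : Type} [TopologicalSpace X] {h : X ≃ₜ X} {q p : ℕ} {L : Type} [Fintype L]
  [DecidableEq L] {g : X → ℝ} {ρ : L → X → Fin 3 → ℝ} {ε : ℝ}

theorem obc_finY (hU : Urp h q ε g) {M k : ℕ} {y : X} {ω : Fin M × L → S2}
    {u : Fin M × L → Fin 2 → ℂ} (hu : ∀ γ, u γ ≠ 0)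
    (hb : ∀ γ s s', ((∑ c, ‖u γ c‖ ^ 2 : ℝ) : ℂ) * bott (ω γ).1 s s' =
      starRingEnd ℂ (u γ s) * u γ s')
    {Bad : Finset (Fin M × L)} (hk : Bad.card ≤ k) (hBad : ∀ γ ∉ Bad, ∀ s : Fin q,
      g ((h ^ pos γ.1 s) y) ≠ 0 → ρ γ.2 ((h ^ pos γ.1 s) y) = (ω γ).1)
    {Mx : Fin (2 * k) → (Fin M × L) × Fin 2 → ℂ} (hMx : ∀ w : (Fin M × L) × Fin 2 → ℂ,
      {a | w a ≠ 0}.ncard ≤ 2 * k → (∀ d, ∑ a, Mx d a * w a = 0) → w = 0)
    {η : ℤ → Fin p ⊕ L × Fin 2 → ℂ} {ζ : Fin M × L → Fin 2 → ℂ}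
    (hζ : ∀ γ σ, ζ γ σ =
      ∑ s : Fin q, (g ((h ^ pos γ.1 s) y) : ℂ) * η (pos γ.1 s) (.inr (γ.2, σ)))
    (h1 : ∀ d, ∑ b, Mx d b * ((obcD h q g ρ b.1 y ω : ℂ) * ζ b.1 b.2) = 0)
    (h2 : ∀ γ, ∑ σ, u γ σ * ζ γ σ = 0) (j : Fin M) (s : Fin q)
    (hg : g ((h ^ pos j s) y) ≠ 0) (k₀ : Fin p ⊕ L × Fin 2) :
    ∑ k', matB p (fun l => ρ l ((h ^ pos j s) y)) k₀ k' * η (pos j s) k' = 0 := by
  have hw := hMx (fun b => (obcD h q g ρ b.1 y ω : ℂ) * ζ b.1 b.2) (by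
    refine (ncard_le_ncard (t := ↑(Bad ×ˢ (Finset.univ : Finset (Fin 2)))) (fun b hb' => ?_)
      (toFinite _)).trans ?_
    · refine Finset.mem_coe.2 (Finset.mem_product.2 ⟨by_contra fun hn => hb' ?_, Finset.mem_univ _⟩)
      have e : obcD h q g ρ b.1 y ω = 0 := Finset.sum_eq_zero fun s' _ => by
        by_cases h0 : g ((h ^ pos b.1.1 s') y) = 0
        · rw [h0, zero_mul]
        · rw [hBad _ hn s' h0, sub_self, norm_zero, mul_zero]
      rw [e, Complex.ofReal_zero, zero_mul]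
    · rw [ncard_coe_finset, Finset.card_product, Finset.card_univ, Fintype.card_fin]
      omega) h1
  have hgc : (g ((h ^ pos j s) y) : ℂ) ≠ 0 := Complex.ofReal_ne_zero.2 hg
  have e1 : ∀ i σ, ζ (j, i) σ = g ((h ^ pos j s) y) * η (pos j s) (.inr (i, σ)) := fun i σ => by
    rw [hζ, Finset.sum_eq_single s (fun s' _ hs => by
      rw [pos_single hU y j hg hs, Complex.ofReal_zero, zero_mul]) (by simp)]
  have e2 : ∀ i, obcD h q g ρ (j, i) y ω =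
      g ((h ^ pos j s) y) * ‖ρ i ((h ^ pos j s) y) - (ω (j, i)).1‖ := fun i =>
    Finset.sum_eq_single s (fun s' _ hs => by rw [pos_single hU y j hg hs, zero_mul]) (by simp)
  rcases k₀ with k₀ | ⟨i, σ⟩
  · exact Finset.sum_eq_zero fun k' _ => by rcases k' with k' | k' <;> simp [matB]
  rw [Fintype.sum_sum_type, Fintype.sum_prod_type, Finset.sum_eq_zero fun k' _ => by simp [matB],
    zero_add, Finset.sum_eq_single i (fun i' _ hi => Finset.sum_eq_zero fun s' _ => by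
      simp [matB, hi.symm]) (by simp)]
  simp only [matB, if_true]
  by_cases hbad : ρ i ((h ^ pos j s) y) = (ω (j, i)).1
  · have h0 : ((∑ c, ‖u (j, i) c‖ ^ 2 : ℝ) : ℂ) ≠ 0 :=
      Complex.ofReal_ne_zero.2 (hpf_ne (hu (j, i)))
    refine (mul_eq_zero.1 ?_).resolve_left h0
    have h3 : ∑ σ', u (j, i) σ' * η (pos j s) (.inr (i, σ')) = 0 := by
      refine (mul_eq_zero.1 ?_).resolve_left hgc
      rw [← h2 (j, i), Finset.mul_sum]
      exact Finset.sum_congr rfl fun σ' _ => by rw [e1]; ring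
    simp only [hbad, Finset.mul_sum _ (fun s' : Fin 2 => _), ← mul_assoc, hb]
    simp only [mul_assoc, ← Finset.mul_sum]
    rw [h3, mul_zero]
  · refine Finset.sum_eq_zero fun σ' _ => ?_
    have h3 : (obcD h q g ρ (j, i) y ω : ℂ) * ζ (j, i) σ' = 0 := congrFun hw ((j, i), σ')
    rw [e1, e2] at h3
    rw [((mul_eq_zero.1 ((mul_eq_zero.1 h3).resolve_left (Complex.ofReal_ne_zero.2
      (mul_ne_zero hg (norm_ne_zero_iff.2 (sub_ne_zero.2 hbad)))))).resolve_left hgc), mul_zero]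

end Vale.Agent.P093
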