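import Vale.Agent.P093C.Tight
import Vale.Agent.P093Z.Core
import Vale.Agent.P093Z.Grp

/-! P093Z Main. Choice of the parameters. -/

open Filter Topology Set
open scoped ENNReal

noncomputable section

namespace Vale.Agent.P093

variable {X : Type} [MetricSpace X] [CompactSpace X] [Infinite X] {h : X ≃ₜ X}

omit [CompactSpace X] [Infinite X] in
theorem maz_cube {𝒰 : Set (Set X)} (hU : IsCover 𝒰) {c : ℝ} (c0 : 0 ≤ c)
    (hc : ENNReal.ofReal c < limsup (fun N : ℕ => intOrd (joinCov h 𝒰 N) / N) atTop) (N₀ : ℕ) :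
    ∃ N ≥ N₀, ∃ (m : ℕ) (A B : Fin m → Set X) (φ : X → X), EssY A B ∧ Continuous φ ∧ c * N ≤ m ∧
      ∀ U ∈ joinCov h 𝒰 N, ∀ i s t, s ∈ A i → t ∈ B i → φ s ∈ U → φ t ∉ U := by
  obtain ⟨N, h1, h2⟩ := frequently_atTop.1 (frequently_lt_of_lt_limsup (h := hc)) (N₀ + 1)
  have h3 : (N : ℝ≥0∞) ≠ 0 := by exact_mod_cast (by omega : N ≠ 0)
  rw [ENNReal.lt_div_iff_mul_lt (Or.inl h3) (Or.inl (ENNReal.natCast_ne_top N)), intOrd] at h2
  simp only [lt_iSup_iff] at h2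
  obtain ⟨m, A, B, h4, h6, h5⟩ := h2
  refine ⟨N, by omega, m, A, B, id, ⟨h6, fun i a ha hb => ?_⟩, continuous_id, ?_,
    fun U hU' i s t hs ht => h4 U hU' i s hs t ht⟩
  · obtain ⟨U, u1, u2⟩ : a ∈ ⋃₀ joinCov h 𝒰 N := (join_cover h hU N).2.2 ▸ mem_univ a
    exact h4 U u1 i a ha a hb u2 u2
  · rw [← ENNReal.ofReal_natCast N, ← ENNReal.ofReal_mul c0, ← ENNReal.ofReal_natCast m] at h5
    exact ((ENNReal.ofReal_lt_ofReal_iff_of_nonneg (by positivity)).1 h5).le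

theorem maz_step (hmin : ∀ x, Dense (range fun n : ℤ => (h ^ n) x)) {𝒰 : Set (Set X)}
    (hU : IsCover 𝒰) {c d : ℝ} (c0 : 0 ≤ c) (cd : c ≤ d)
    (hd : limsup (fun N : ℕ => (leastOrd (joinCov h 𝒰 N) : ℝ≥0∞) / N) atTop < ENNReal.ofReal d)
    (hc : ENNReal.ofReal c < limsup (fun N : ℕ => intOrd (joinCov h 𝒰 N) / N) atTop) (t : ℕ)
    {η : ℝ} (hη : 0 < η) :
    ENNReal.ofReal (d * t / (2 * t + 1) - 8 * t * (d - c) - 3 * η) ≤ rc (cross h) := by
  have d0 : 0 ≤ d := c0.trans cd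
  obtain ⟨Λ₀, _, col₀, G₀, h₀⟩ := exists_col hU le_rfl
  generalize leastOrd 𝒰 = n₀ at col₀ h₀
  obtain ⟨ε, hε, hε1, hε2⟩ : ∃ ε : ℝ, 0 < ε ∧ ε ≤ 1 / 2 ∧
      ε * (d + 8 * t * (n₀ + 1) + 1) ≤ η := by
    refine ⟨min (1 / 2) (η / (d + 8 * t * (n₀ + 1) + 1)), by positivity, min_le_left _ _, ?_⟩
    exact (le_div_iff₀ (by positivity)).1 (min_le_right _ _)
  obtain ⟨Q₀, hQ₀⟩ := exists_nat_ge ((9 * (t : ℝ) + 1) / η)
  obtain ⟨q, h1, h2⟩ := ((eventually_lt_of_limsup_lt hd).and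
    (eventually_ge_atTop (Q₀ + 1))).exists
  have hq : 0 < q := by omega
  have hq' : (0 : ℝ) < q := by exact_mod_cast hq
  have h3 : (q : ℝ≥0∞) ≠ 0 := by exact_mod_cast hq.ne'
  rw [ENNReal.div_lt_iff (Or.inl h3) (Or.inl (ENNReal.natCast_ne_top q)),
    ← ENNReal.ofReal_natCast q, ← ENNReal.ofReal_mul d0, ← ENNReal.ofReal_natCast,
    ENNReal.ofReal_lt_ofReal_iff_of_nonneg (by positivity)] at h1
  obtain ⟨Λ, _, col, G, h4⟩ := exists_col (join_cover h hU q) (Nat.le_floor h1.le)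
  have n1 := (Nat.lt_floor_add_one (d * q)).le
  have n2 := Nat.floor_le (a := d * q) (by positivity)
  generalize ⌊d * q⌋₊ = n at col h4 n1 n2
  obtain ⟨g, hg⟩ := exists_urp hmin hq hε
  have n3 := (mul_le_mul_of_nonneg_right cd hq'.le).trans n1
  obtain ⟨ρ, hM⟩ := exists_markY hq hε hε1 hg h4 h₀ c0 n3 (maz_cube hU c0 hc) (t := t)
    (γ := (n + 1) / (2 * t + 1)) (p := ⌊8 * t * (n + 1 - c * q + (n₀ + 1) * ε * q)⌋₊ + 1)
    (Nat.div_mul_le_self _ _) (by push_cast; exact Nat.lt_floor_add_one _)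
  refine le_trans (ENNReal.ofReal_le_ofReal ?_) (le_rcC_Y hM hq)
  rw [Fintype.card_prod, Fintype.card_fin, Fintype.card_fin, Nat.cast_mul]
  have b1 : 0 ≤ ε * d := by positivity
  have b2 : 0 ≤ ε * (8 * t * (n₀ + 1)) := by positivity
  refine mac_num (a := n₀ + 1) (c := c) hq' (by positivity) (by positivity) hε hε1 (by linarith)
    (by linarith) ?_ n1 n2 ?_ ?_ ?_
  · rw [div_le_iff₀ hη] at hQ₀
    have : (Q₀ : ℝ) ≤ q := by exact_mod_cast (by omega : Q₀ ≤ q)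
    nlinarith
  · exact_mod_cast Nat.div_mul_le_self (n + 1) (2 * t + 1)
  · have k1 := Nat.div_add_mod' (n + 1) (2 * t + 1)
    have k2 := Nat.mod_lt (n + 1) (Nat.add_one_pos (2 * t))
    have k3 : n + 1 ≤ (n + 1) / (2 * t + 1) * (2 * t + 1) + 2 * t := by omega
    exact_mod_cast k3
  · push_cast
    have b3 : 0 ≤ (n₀ + 1) * ε * q := by positivity
    exact add_le_add (Nat.floor_le (mul_nonneg (by positivity) (by linarith))) le_rfl

theorem int_step (hmin : ∀ x, Dense (range fun n : ℤ => (h ^ n) x)) {𝒰 : Set (Set X)}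
    (hU : IsCover 𝒰) {c d : ℝ} (c0 : 0 ≤ c) (cd : c ≤ d)
    (hd : limsup (fun N : ℕ => (leastOrd (joinCov h 𝒰 N) : ℝ≥0∞) / N) atTop < ENNReal.ofReal d)
    (hc : ENNReal.ofReal c < limsup (fun N : ℕ => intOrd (joinCov h 𝒰 N) / N) atTop) (t : ℕ) :
    ENNReal.ofReal (d * t / (2 * t + 1) - 8 * t * (d - c)) ≤ rc (cross h) := by
  refine mac_lim fun η hη => ?_
  have h1 := maz_step hmin hU c0 cd hd hc t (η := η / 3) (by positivity)
  rwa [mul_div_cancel₀ _ three_ne_zero] at h1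

theorem int_tight (hmin : ∀ x, Dense (range fun n : ℤ => (h ^ n) x)) {D : ℝ}
    (H : ∀ η : ℝ≥0∞, 0 < η → ∃ 𝒱, IsCover 𝒱 ∧ ENNReal.ofReal D ≤ intRate h 𝒱 + η ∧
      ordRate h 𝒱 ≤ intRate h 𝒱 + η) : ENNReal.ofReal (D / 2) ≤ rc (cross h) := by
  rcases le_or_gt D 0 with h0 | h0
  · rw [ENNReal.ofReal_of_nonpos (by linarith)]
    exact zero_le
  refine ENNReal.le_of_forall_pos_le_add fun ε hε _ => ?_
  have hε' : (0 : ℝ) < ε := hε
  obtain ⟨t, ht⟩ := exists_nat_ge (D / ε)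
  rw [div_le_iff₀ hε'] at ht
  obtain ⟨β, b0, b1, b2⟩ : ∃ β : ℝ, 0 < β ∧ 3 * β ≤ D ∧ 48 * t * β ≤ ε := by
    have e0 := min_le_left (D / 3) (ε / (48 * t + 1))
    refine ⟨min (D / 3) (ε / (48 * t + 1)), by positivity, by linarith, ?_⟩
    refine (mul_le_mul_of_nonneg_left (min_le_right _ _) (by positivity)).trans ?_
    rw [← mul_div_assoc, div_le_iff₀ (by positivity)]
    nlinarith
  obtain ⟨𝒱, hV, v1, v2⟩ := H (ENNReal.ofReal β) (ENNReal.ofReal_pos.2 b0)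
  obtain ⟨d, hd⟩ : ∃ d, ordRate h 𝒱 = ENNReal.ofReal d :=
    ⟨_, (ENNReal.ofReal_toReal (rate_fin hV)).symm⟩
  have x1 := le_max_left D d
  have x2 := le_max_right D d
  have x3 : ENNReal.ofReal (max D d) ≤ intRate h 𝒱 + ENNReal.ofReal β := by
    rw [ENNReal.ofReal_max]
    exact max_le v1 (hd ▸ v2)
  have h1 := int_step hmin hV (c := max D d - 2 * β) (d := max D d + β) (by linarith)
    (by linarith) (hd.trans_lt ((ENNReal.ofReal_lt_ofReal_iff (by linarith)).2 (by linarith)))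
    (by
      by_contra hn
      have h2 := x3.trans (add_le_add (not_lt.1 hn) le_rfl)
      rw [← ENNReal.ofReal_add (by linarith) b0.le,
        ENNReal.ofReal_le_ofReal_iff (by linarith)] at h2
      linarith) t
  have h3 : D / 2 - ε / 2 ≤ (max D d + β) * t / (2 * t + 1) := by
    rw [le_div_iff₀ (by positivity)]
    have : D * t ≤ (max D d + β) * t := mul_le_mul_of_nonneg_right (by linarith) t.cast_nonneg
    nlinarith
  calc ENNReal.ofReal (D / 2)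
      ≤ ENNReal.ofReal (((max D d + β) * t / (2 * t + 1) -
          8 * t * (max D d + β - (max D d - 2 * β))) + ε) :=
        ENNReal.ofReal_le_ofReal (by linarith)
    _ ≤ _ := ENNReal.ofReal_add_le
    _ ≤ rc (cross h) + ε := by
      rw [ENNReal.ofReal_coe_nnreal]
      exact add_le_add h1 le_rfl

theorem int_main (hmin : ∀ x, Dense (range fun n : ℤ => (h ^ n) x))
    (H : ∀ 𝒰, IsCover 𝒰 → ∀ η : ℝ≥0∞, 0 < η → ∃ 𝒱, IsCover 𝒱 ∧
      ordRate h 𝒰 ≤ intRate h 𝒱 + η ∧ ordRate h 𝒱 ≤ intRate h 𝒱 + η) :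
    mdim h / 2 ≤ rc (cross h) := by
  refine ENNReal.div_le_of_le_mul (iSup₂_le fun 𝒰 hU => ?_)
  have e := ENNReal.ofReal_toReal (rate_fin (h := h) hU)
  have h1 := int_tight hmin (D := (ordRate h 𝒰).toReal) fun η hη => by
    rw [e]
    exact H 𝒰 hU η hη
  rw [ENNReal.ofReal_div_of_pos two_pos, ENNReal.ofReal_ofNat, e,
    ENNReal.div_le_iff two_ne_zero ENNReal.ofNat_ne_top] at h1
  exact h1

end Vale.Agent.P093
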